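import Vale.Agent.P058.Kite

set_option autoImplicit false

open TensorProduct

namespace Vale.Agent.Results.P058.Classification

/-- `B` is the image of `A` under a map preserving all pairwise distances of points of `A`. -/
def IsCongruent {d n : ℕ} (A : Set (EuclideanSpace ℝ (Fin d)))
    (B : Set (EuclideanSpace ℝ (Fin n))) : Prop :=
  ∃ f : EuclideanSpace ℝ (Fin d) → EuclideanSpace ℝ (Fin n),
    (∀ x ∈ A, ∀ y ∈ A, dist (f x) (f y) = dist x y) ∧ f '' A = B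

/-- Euclidean Ramsey sets (arbitrary colorings, no rescaling). -/
def IsRamsey {d : ℕ} (A : Set (EuclideanSpace ℝ (Fin d))) : Prop :=
  ∀ r : ℕ, 2 ≤ r → ∃ D : ℕ, 1 ≤ D ∧ ∀ c : EuclideanSpace ℝ (Fin D) → Fin r,
    ∃ A' : Set (EuclideanSpace ℝ (Fin D)), IsCongruent A A' ∧ ∃ k : Fin r, ∀ y ∈ A', c y = k

/-- The isometries of the ambient space mapping `X` onto itself act transitively on `X`. -/
def IsTransitive {n : ℕ} (X : Set (EuclideanSpace ℝ (Fin n))) : Prop :=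
  ∀ x ∈ X, ∀ y ∈ X, ∃ g : EuclideanSpace ℝ (Fin n) ≃ᵢ EuclideanSpace ℝ (Fin n),
    g '' X = X ∧ g x = y

/-- `A` is congruent to a subset of a finite transitive set. -/
def IsSubtransitive {d : ℕ} (A : Set (EuclideanSpace ℝ (Fin d))) : Prop :=
  ∃ (n : ℕ) (X : Set (EuclideanSpace ℝ (Fin n))), X.Finite ∧ IsTransitive X ∧
    ∃ A' ⊆ X, IsCongruent A A'

/-- The tensor criterion over a subfield `F` of the reals: a matrix `P` over `F ⊗[ℚ] F`, indexed by
homogeneous coordinates `p = (1, a)`, with `(p ⊗ 1)ᵀ P (1 ⊗ p) = 0` at every point `a` of `A` and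
whose spatial block becomes the identity matrix under the multiplication map `F ⊗[ℚ] F → F`. -/
def TensorCriterion {d : ℕ} (F : Subfield ℝ) (A : Set (EuclideanSpace ℝ (Fin d))) : Prop :=
  ∃ P : Matrix (Fin (d + 1)) (Fin (d + 1)) (F ⊗[ℚ] F),
    (∀ a : Fin d → F, WithLp.toLp 2 (fun k => (a k : ℝ)) ∈ A →
      ∑ α, ∑ β, ((Fin.cons 1 a : Fin (d + 1) → F) α ⊗ₜ[ℚ] (1 : F)) * P α β *
        ((1 : F) ⊗ₜ[ℚ] (Fin.cons 1 a : Fin (d + 1) → F) β) = 0) ∧
    ∀ α β : Fin d, LinearMap.mul' ℚ F (P α.succ β.succ) = if α = β then 1 else 0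

open Vale.Agent.P058

theorem dist_iff {d n : ℕ} (x y : EuclideanSpace ℝ (Fin d)) (u v : EuclideanSpace ℝ (Fin n)) :
    dist u v = dist x y ↔ ∑ k, (u k - v k) ^ 2 = ∑ k, (x k - y k) ^ 2 := by
  rw [← pow_left_inj₀ dist_nonneg dist_nonneg two_ne_zero, EuclideanSpace.dist_sq_eq,
    EuclideanSpace.dist_sq_eq]
  simp only [Real.dist_eq, sq_abs]

theorem ramsey_iff {d : ℕ} (A : Set (EuclideanSpace ℝ (Fin d))) :
    IsRamsey A ↔ Ram fun (i : A) k => i.1 k := by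
  classical
  refine forall₂_congr fun r _ => exists_congr fun D => and_congr_right fun _ => ⟨fun h c => ?_,
    fun h c => ?_⟩
  · obtain ⟨_, ⟨f, hf, rfl⟩, k, hk⟩ := h fun y => c y.ofLp
    refine ⟨fun i => (f i).ofLp, ?_, k, fun i => hk _ ⟨i, i.2, rfl⟩⟩
    funext i j
    exact (dist_iff _ _ _ _).1 (hf i i.2 j j.2)
  · obtain ⟨x, hx, k, hk⟩ := h fun y => c (WithLp.toLp 2 y)
    refine ⟨_, ⟨fun y => if h : y ∈ A then WithLp.toLp 2 (x ⟨y, h⟩) else 0, fun y hy z hz => ?_,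
      rfl⟩, k, ?_⟩
    · simp only [dif_pos hy, dif_pos hz, dist_iff]
      exact congrFun (congrFun hx ⟨y, hy⟩) ⟨z, hz⟩
    · rintro _ ⟨y, hy, rfl⟩
      simp only [dif_pos hy, hk]

theorem coord_inj {d : ℕ} (A : Set (EuclideanSpace ℝ (Fin d))) :
    Function.Injective fun (i : A) k => i.1 k := by
  intro i j h
  ext k
  exact congrFun h k

theorem trans_perm {n : ℕ} {X : Set (EuclideanSpace ℝ (Fin n))} (h : IsTransitive X) (i j : X) :
    ∃ τ : Equiv.Perm X, (∀ k l, DD (fun (i : X) k => i.1 k) (τ k) (τ l) =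
      DD (fun (i : X) k => i.1 k) k l) ∧ τ i = j := by
  obtain ⟨g, h1, h2⟩ := h i i.2 j j.2
  have hb : Set.BijOn g X X := by
    have := g.injective.injOn.bijOn_image (s := X)
    rwa [h1] at this
  refine ⟨hb.equiv g, fun k l => ?_, Subtype.ext h2⟩
  exact (dist_iff _ _ _ _).1 (g.dist_eq k l)

theorem sub_data {d : ℕ} {A : Set (EuclideanSpace ℝ (Fin d))} (h : IsSubtransitive A) :
    ∃ (n : ℕ) (X : Set (EuclideanSpace ℝ (Fin n))), X.Finite ∧ IsTransitive X ∧ ∃ f : A → X,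
      ∀ i j, DD (fun (i : X) k => i.1 k) (f i) (f j) = DD (fun (i : A) k => i.1 k) i j := by
  obtain ⟨n, X, h1, h2, _, h3, f, hf, rfl⟩ := h
  exact ⟨n, X, h1, h2, fun i => ⟨f i, h3 ⟨i, i.2, rfl⟩⟩,
    fun i j => (dist_iff _ _ _ _).1 (hf i i.2 j j.2)⟩

theorem five_ramsey {d : ℕ} (A : Set (EuclideanSpace ℝ (Fin d))) (hA : A.Finite)
    (hne : A.Nonempty) (hc : A.ncard ≤ 5) (z : EuclideanSpace ℝ (Fin d)) (ρ : ℝ)
    (hs : A ⊆ Metric.sphere z ρ) : IsRamsey A := by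
  have := hA.fintype
  have := hne.to_subtype
  rw [ramsey_iff]
  refine crit_ram (coord_inj A) (five_crit (coord_inj A) (fun k => z k) (ρ ^ 2) (fun i => ?_) ?_)
  · rw [← Metric.mem_sphere.1 (hs i.2), EuclideanSpace.dist_sq_eq]
    simp only [Real.dist_eq, sq_abs]
  · rwa [← Nat.card_eq_fintype_card]

theorem result :
    (∀ (d : ℕ) (A : Set (EuclideanSpace ℝ (Fin d))), A.Finite → A.Nonempty →
      ∀ F : Subfield ℝ, (∀ a ∈ A, ∀ k, a k ∈ F) → (IsRamsey A ↔ TensorCriterion F A)) ∧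
    (∀ (d : ℕ) (A : Set (EuclideanSpace ℝ (Fin d))), A.Finite → A.Nonempty →
      IsSubtransitive A → IsRamsey A) ∧
    (∀ (d : ℕ) (A : Set (EuclideanSpace ℝ (Fin d))), A.Finite → A.Nonempty → A.ncard ≤ 5 →
      (∃ (z : EuclideanSpace ℝ (Fin d)) (ρ : ℝ), A ⊆ Metric.sphere z ρ) → IsRamsey A) ∧
    (∃ A : Set (EuclideanSpace ℝ (Fin 2)), A.Finite ∧ A.Nonempty ∧ A.ncard ≤ 4 ∧
      A ⊆ Metric.sphere 0 1 ∧ IsRamsey A ∧ ¬ IsSubtransitive A) := by
  refine ⟨fun d A hA hne F hF => ?_, fun d A hA hne h => ?_,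
    fun d A hA hne hc ⟨z, ρ, hs⟩ => five_ramsey A hA hne hc z ρ hs, ?_⟩
  · have := hA.fintype
    have := hne.to_subtype
    have h1 : IsRamsey A ↔ CritF F fun (i : A) k => ⟨i.1 k, hF i i.2 k⟩ := by
      rw [ramsey_iff, critF_iff]
      exact ⟨ram_crit, crit_ram (coord_inj A)⟩
    have e : ∀ (p q : F) (t : F ⊗[ℚ] F), (p ⊗ₜ[ℚ] (1 : F)) * t * ((1 : F) ⊗ₜ[ℚ] q) =
        (p ⊗ₜ[ℚ] q) * t := by
      intro p q t
      rw [mul_right_comm, Algebra.TensorProduct.tmul_mul_tmul, mul_one, one_mul]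
    rw [h1]
    simp only [TensorCriterion, e]
    exact ⟨fun ⟨P, h2, h3⟩ => ⟨P, fun a ha => h2 ⟨_, ha⟩, h3⟩,
      fun ⟨P, h2, h3⟩ => ⟨P, fun i => h2 _ i.2, h3⟩⟩
  · obtain ⟨n, X, h1, h2, f, hf⟩ := sub_data h
    have := h1.fintype
    have : Nonempty X := ⟨f hne.to_subtype.some⟩
    rw [ramsey_iff]
    exact (crit_ram (coord_inj X) (trans_crit _ (trans_perm h2))).comp f hf
  · have hfin : (Set.range fun i => (WithLp.toLp 2 (kite i) : EuclideanSpace ℝ (Fin 2))).Finite :=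
      Set.finite_range _
    have hc : (Set.range fun i =>
        (WithLp.toLp 2 (kite i) : EuclideanSpace ℝ (Fin 2))).ncard ≤ 4 := by
      rw [← Set.image_univ]
      exact (Set.ncard_image_le Set.finite_univ).trans (by simp [Set.ncard_univ])
    have hs : (Set.range fun i => (WithLp.toLp 2 (kite i) : EuclideanSpace ℝ (Fin 2))) ⊆
        Metric.sphere 0 1 := by
      rintro _ ⟨i, rfl⟩
      rw [Metric.mem_sphere, ← pow_left_inj₀ dist_nonneg zero_le_one two_ne_zero,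
        EuclideanSpace.dist_sq_eq, one_pow, ← kite_sphere i]
      simp only [Real.dist_eq, sq_abs]
      rfl
    refine ⟨_, hfin, Set.range_nonempty _, hc, hs,
      five_ramsey _ hfin (Set.range_nonempty _) (by omega) _ _ hs, fun h => ?_⟩
    obtain ⟨n, X, h1, h2, f, hf⟩ := sub_data h
    have := h1.fintype
    exact kite_not_sub _ (trans_perm h2) (fun i => f ⟨_, i, rfl⟩) fun i j => hf _ _

end Vale.Agent.Results.P058.Classification
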